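import Mathlib.Analysis.CStarAlgebra.CompletelyPositiveMap
import Mathlib.Analysis.Fourier.AddCircle
import Mathlib.Analysis.InnerProductSpace.StarOrder
import Mathlib.Analysis.Normed.Operator.ContinuousAlgEquiv
import Mathlib.Analysis.Real.Pi.Bounds
import Mathlib.Analysis.SpecialFunctions.Integrals.Basic
import Mathlib.Data.Finset.Functor
import Mathlib.Data.Int.Star
import Mathlib.Data.Nat.Dist
import Mathlib.GroupTheory.FreeGroup.Reduce
import Mathlib.RingTheory.Flat.FaithfullyFlat.Algebra
import Mathlib.RingTheory.Flat.TorsionFree
import Mathlib.RingTheory.SimpleRing.Principal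
import Mathlib.Tactic
import Mathlib.Topology.Algebra.ProperAction.Basic
import Mathlib.Topology.Compactness.CompactlyGeneratedSpace
import Mathlib.Topology.Order.Hom.Esakia
import Mathlib.Topology.UniformSpace.Uniformizable

/-! The part of Mathlib that the development of this folder uses. -/
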